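import Mathlib

/-!
# P017 (helper262): from the `3`- and `5`-isogeny parameters to a point of the quartic model
`z² = c⁴ - 10 c³ - 13 c² + 10 c + 1` of `X₀(15)`.
-/

namespace Vale.Agent.P017.H262

variable {K : Type*} [Field K] [CharZero K]

theorem exists_c (h5 : ∀ s : K, s ^ 2 ≠ 5) {h t : K} (hh : h ≠ 0) (ht : t ≠ 0)
    (hR : (h + 27) * (h + 3) ^ 3 * t = (t ^ 2 + 10 * t + 5) ^ 3 * h) :
    ∃ c : K, c ≠ 0 ∧ t * (c ^ 4 - 9 * c ^ 3 - 9 * c - 1) = 125 * c ^ 3 + t ^ 2 * c := by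
  have hN1 : h + 3 ≠ 0 := by
    intro h0
    rw [h0] at hR
    have h1 : (t ^ 2 + 10 * t + 5) ^ 3 = 0 := by
      have h0' : (t ^ 2 + 10 * t + 5) ^ 3 * h = 0 := by rw [← hR]; ring
      rcases mul_eq_zero.mp h0' with h1 | h1
      · exact h1
      · exact absurd h1 hh
    have h2 : t ^ 2 + 10 * t + 5 = 0 := by simpa using h1
    apply h5 ((t + 5) / 2)
    linear_combination (1 / 4 : K) * h2
  have hN2 : t ^ 2 + 4 * t - 1 ≠ 0 := by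
    intro h0
    apply h5 (t + 2)
    linear_combination h0
  have hN : (h + 3) * (t ^ 2 + 4 * t - 1) ≠ 0 := mul_ne_zero hN1 hN2
  have key : t * ((h + 3) * (t ^ 2 + 4 * t - 1)) ^ 4 - (9 * t + 125) *
      ((h + 3) * (t ^ 2 + 4 * t - 1)) ^ 3 * (h ^ 2 + 18 * h - 3 * t ^ 3 - 39 * t ^ 2 - 105 * t) -
      (9 * t + t ^ 2) * ((h + 3) * (t ^ 2 + 4 * t - 1)) *
        (h ^ 2 + 18 * h - 3 * t ^ 3 - 39 * t ^ 2 - 105 * t) ^ 3 -
      t * (h ^ 2 + 18 * h - 3 * t ^ 3 - 39 * t ^ 2 - 105 * t) ^ 4 = 0 := by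
    linear_combination (- h ^ 4 - h ^ 3 * t ^ 3 - 13 * h ^ 3 * t ^ 2 - 35 * h ^ 3 * t - 27 * h ^ 3
      - 9 * h ^ 2 * t ^ 3 - 117 * h ^ 2 * t ^ 2 - 315 * h ^ 2 * t - 189 * h ^ 2 + 216 * h * t ^ 4
      + 1917 * h * t ^ 3 + 5481 * h * t ^ 2 + 4887 * h * t - 513 * h - 27 * t ^ 7 - 594 * t ^ 6
      - 4833 * t ^ 5 - 18468 * t ^ 4 - 32832 * t ^ 3 - 19305 * t ^ 2 + 5616 * t - 486) * hR
  have hD : h ^ 2 + 18 * h - 3 * t ^ 3 - 39 * t ^ 2 - 105 * t ≠ 0 := by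
    intro h0
    rw [h0] at key
    have h1 : t * ((h + 3) * (t ^ 2 + 4 * t - 1)) ^ 4 = 0 := by linear_combination key
    exact mul_ne_zero ht (pow_ne_zero 4 hN) h1
  refine ⟨(h + 3) * (t ^ 2 + 4 * t - 1) / (h ^ 2 + 18 * h - 3 * t ^ 3 - 39 * t ^ 2 - 105 * t),
    div_ne_zero hN hD, ?_⟩
  generalize (h + 3) * (t ^ 2 + 4 * t - 1) = N at *
  generalize h ^ 2 + 18 * h - 3 * t ^ 3 - 39 * t ^ 2 - 105 * t = D at *
  field_simp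
  linear_combination key

theorem exists_z (h5 : ∀ s : K, s ^ 2 ≠ 5) {c t : K}
    (hc : t * (c ^ 4 - 9 * c ^ 3 - 9 * c - 1) = 125 * c ^ 3 + t ^ 2 * c) :
    ∃ z : K, z ^ 2 = c ^ 4 - 10 * c ^ 3 - 13 * c ^ 2 + 10 * c + 1 := by
  have hB : c ^ 2 - 4 * c - 1 ≠ 0 := by
    intro h0
    apply h5 (c - 2)
    linear_combination h0
  refine ⟨(2 * t * c + (1 + 9 * c + 9 * c ^ 3 - c ^ 4)) / (c ^ 2 - 4 * c - 1), ?_⟩
  rw [div_pow, div_eq_iff (pow_ne_zero 2 hB)]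
  linear_combination (-4 * c) * hc

end Vale.Agent.P017.H262
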