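import Vale.Agent.P017.H185.Crit

/-!
# P017 (helper262): the rational points of `X₀(15)`: the curve `y² = x (x + 16) (x + 25)` has
exactly the rational points with `x ∈ {∞, 0, -16, -25, 20, -20}`.
-/

namespace Vale.Agent.P017.H262

open WeierstrassCurve Vale.Agent.P017.H185

/-- the `x`-coordinates of rational points -/
def SX : Set ℚ := {x | ∃ y : ℚ, y ^ 2 = x * (x + 16) * (x + 25)}

theorem SX_finite : SX.Finite := by
  have h := finite_EQ'
  have : SX ⊆ Set.range (fun P : (ED (-1)).toAffine.Point => match P with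
      | .zero => (0 : ℚ)
      | .some x _ _ => x) := by
    rintro x ⟨y, hy⟩
    refine ⟨pt m1 x y (by rw [hy]; ring), rfl⟩
  exact (Set.finite_range _).subset this

theorem dbl {x y : ℚ} (h : y ^ 2 = x * (x + 16) * (x + 25)) (hy : y ≠ 0) :
    ((x ^ 2 - 400) / (2 * y)) ^ 2 + 16 = ((x ^ 2 + 32 * x + 400) / (2 * y)) ^ 2 ∧
    ((x ^ 2 - 400) / (2 * y)) ^ 2 + 25 = ((x ^ 2 + 50 * x + 400) / (2 * y)) ^ 2 := by
  constructor
  · field_simp
    rw [h]
    ring
  · field_simp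
    rw [h]
    ring

theorem dbl_mem {x y : ℚ} (h : y ^ 2 = x * (x + 16) * (x + 25)) (hy : y ≠ 0) :
    ((x ^ 2 - 400) / (2 * y)) ^ 2 ∈ SX := by
  obtain ⟨h1, h2⟩ := dbl h hy
  refine ⟨((x ^ 2 - 400) / (2 * y)) * ((x ^ 2 + 32 * x + 400) / (2 * y)) *
    ((x ^ 2 + 50 * x + 400) / (2 * y)), ?_⟩
  rw [h1, h2]
  ring

theorem add_val {a b : ℚ} (ha : a ≠ 0) (hb : b ≠ 0) (h : padicValRat 2 a < padicValRat 2 b) :
    a + b ≠ 0 ∧ padicValRat 2 (a + b) = padicValRat 2 a := by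
  have hne : a + b ≠ 0 := by
    intro h0
    have : b = -a := by linarith
    rw [this, padicValRat.neg] at h
    exact lt_irrefl _ h
  exact ⟨hne, padicValRat.add_eq_of_lt hne ha hb h⟩

theorem val_int_nonneg (n : ℤ) : 0 ≤ padicValRat 2 (n : ℚ) := by
  rw [padicValRat.of_int]; positivity

theorem growth {x : ℚ} (hx : x ∈ SX) (hv : padicValRat 2 x < 0) :
    ∃ X ∈ SX, padicValRat 2 X < padicValRat 2 x := by
  obtain ⟨y, h⟩ := hx
  have hx0 : x ≠ 0 := by rintro rfl; simp at hv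
  have e16 : (0 : ℤ) ≤ padicValRat 2 (16 : ℚ) := by
    have := val_int_nonneg 16; rwa [Int.cast_ofNat] at this
  have e25 : (0 : ℤ) ≤ padicValRat 2 (25 : ℚ) := by
    have := val_int_nonneg 25; rwa [Int.cast_ofNat] at this
  have e400 : (0 : ℤ) ≤ padicValRat 2 (-400 : ℚ) := by exact_mod_cast val_int_nonneg (-400)
  obtain ⟨n16, v16⟩ := add_val hx0 (by norm_num : (16 : ℚ) ≠ 0) (by omega)
  obtain ⟨n25, v25⟩ := add_val hx0 (by norm_num : (25 : ℚ) ≠ 0) (by omega)
  have hx2 : padicValRat 2 (x ^ 2) = 2 * padicValRat 2 x := by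
    rw [padicValRat.pow]; rfl
  obtain ⟨n400, v400⟩ := add_val (pow_ne_zero 2 hx0) (by norm_num : (-400 : ℚ) ≠ 0)
    (by rw [hx2]; omega)
  have hy : y ≠ 0 := by
    rintro rfl
    have : x * (x + 16) * (x + 25) ≠ 0 := mul_ne_zero (mul_ne_zero hx0 n16) n25
    apply this; rw [← h]; ring
  have hyv : 2 * padicValRat 2 y = 3 * padicValRat 2 x := by
    have h1 : padicValRat 2 (y ^ 2) = 2 * padicValRat 2 y := by rw [padicValRat.pow]; rfl
    rw [← h1, h, padicValRat.mul (mul_ne_zero hx0 n16) n25, padicValRat.mul hx0 n16, v16, v25]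
    ring
  refine ⟨_, dbl_mem h hy, ?_⟩
  have e2 : padicValRat 2 (2 : ℚ) = 1 := by
    have := padicValRat.self (p := 2) (by norm_num)
    exact_mod_cast this
  have hs : x ^ 2 - 400 = x ^ 2 + (-400) := by ring
  rw [padicValRat.pow, hs, padicValRat.div n400 (mul_ne_zero two_ne_zero hy), v400, hx2,
    padicValRat.mul two_ne_zero hy, e2]
  push_cast
  linarith

/-- (a) all rational points have `2`-integral `x` -/
theorem val_nonneg {x : ℚ} (hx : x ∈ SX) : 0 ≤ padicValRat 2 x := by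
  obtain ⟨a, ha, hmin⟩ := Set.exists_min_image SX (padicValRat 2) SX_finite ⟨x, hx⟩
  refine le_trans ?_ (hmin x hx)
  by_contra hcon
  push Not at hcon
  obtain ⟨X, hX, hlt⟩ := growth ha hcon
  exact absurd (hmin X hX) (not_le.mpr hlt)

/-- a rational number whose square is an integer is an integer -/
theorem int_of_sq {r : ℚ} {n : ℤ} (h : r ^ 2 = n) : ∃ m : ℤ, r = m := by
  have h1 : _root_.IsIntegral ℤ (r ^ 2) := by rw [h]; exact isIntegral_algebraMap
  have h2 : _root_.IsIntegral ℤ r := IsIntegral.of_pow two_pos h1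
  obtain ⟨y, hy⟩ := IsIntegrallyClosed.isIntegral_iff.mp h2
  exact ⟨y, by simpa using hy.symm⟩

theorem sq_mod8 (a : ℤ) : (a % 2 = 1 → a ^ 2 % 8 = 1) ∧ (a % 2 = 0 → a ^ 2 % 8 = 0 ∨ a ^ 2 % 8 = 4) := by
  have h : a % 8 = 0 ∨ a % 8 = 1 ∨ a % 8 = 2 ∨ a % 8 = 3 ∨ a % 8 = 4 ∨ a % 8 = 5 ∨ a % 8 = 6 ∨
    a % 8 = 7 := by omega
  rcases h with h | h | h | h | h | h | h | h <;> constructor <;> intro h2 <;>
    first | omega | simp [pow_two, Int.mul_emod, h]

theorem eight_dvd {α β γ δ : ℤ} (hβ : β % 2 = 1) (h1 : γ ^ 2 = α ^ 2 + 16 * β ^ 2)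
    (h2 : δ ^ 2 = α ^ 2 + 25 * β ^ 2) : ∃ a : ℤ, α = 8 * a := by
  have hb := (sq_mod8 β).1 hβ
  have hα : α % 2 = 0 := by
    by_contra hcon
    have ha := (sq_mod8 α).1 (by omega)
    rcases Int.emod_two_eq_zero_or_one δ with hd | hd
    · have := (sq_mod8 δ).2 hd; omega
    · have := (sq_mod8 δ).1 hd; omega
  obtain ⟨α₁, rfl⟩ : ∃ a, α = 2 * a := ⟨α / 2, by omega⟩
  have hδ : δ % 2 = 1 := by
    by_contra hcon
    have hd := (sq_mod8 δ).2 (by omega)
    have : (2 * α₁) ^ 2 = 4 * α₁ ^ 2 := by ring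
    omega
  have hd := (sq_mod8 δ).1 hδ
  have hα1 : α₁ % 2 = 0 := by
    by_contra hcon
    have ha := (sq_mod8 α₁).1 (by omega)
    have : (2 * α₁) ^ 2 = 4 * α₁ ^ 2 := by ring
    omega
  obtain ⟨α₂, rfl⟩ : ∃ a, α₁ = 2 * a := ⟨α₁ / 2, by omega⟩
  have hγ : γ % 2 = 0 := by
    by_contra hcon
    have hc := (sq_mod8 γ).1 (by omega)
    have : (2 * (2 * α₂)) ^ 2 = 16 * α₂ ^ 2 := by ring
    omega
  obtain ⟨γ₁, rfl⟩ : ∃ a, γ = 2 * a := ⟨γ / 2, by omega⟩
  have h3 : γ₁ ^ 2 = 4 * α₂ ^ 2 + 4 * β ^ 2 := by nlinarith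
  have hγ1 : γ₁ % 2 = 0 := by
    by_contra hcon
    have hc := (sq_mod8 γ₁).1 (by omega)
    omega
  obtain ⟨γ₂, rfl⟩ : ∃ a, γ₁ = 2 * a := ⟨γ₁ / 2, by omega⟩
  have h4 : γ₂ ^ 2 = α₂ ^ 2 + β ^ 2 := by nlinarith
  have hα2 : α₂ % 2 = 0 := by
    by_contra hcon
    have ha := (sq_mod8 α₂).1 (by omega)
    rcases Int.emod_two_eq_zero_or_one γ₂ with hd | hd
    · have := (sq_mod8 γ₂).2 hd; omega
    · have := (sq_mod8 γ₂).1 hd; omega
  exact ⟨α₂ / 2, by omega⟩

theorem three_le_val {A B C : ℚ} (hA : A ≠ 0) (hv : 0 ≤ padicValRat 2 A) (hB : A ^ 2 + 16 = B ^ 2)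
    (hC : A ^ 2 + 25 = C ^ 2) : 3 ≤ padicValRat 2 A := by
  have hden : (A.den : ℚ) ≠ 0 := by exact_mod_cast A.den_ne_zero
  have hAn : A = A.num / A.den := (Rat.num_div_den A).symm
  have hAd : A * A.den = A.num := Rat.mul_den_eq_num A
  have hodd : (A.den : ℤ) % 2 = 1 := by
    by_contra hcon
    have h2 : 2 ∣ A.den := by omega
    have h3 : ¬ 2 ∣ A.num.natAbs := by
      intro h3
      have := Nat.dvd_gcd h3 h2
      rw [A.reduced] at this
      omega
    have h4 : padicValInt 2 A.num = 0 := padicValNat.eq_zero_of_not_dvd h3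
    have h5 : 1 ≤ padicValNat 2 A.den := one_le_padicValNat_of_dvd A.den_ne_zero h2
    rw [padicValRat_def, h4] at hv
    omega
  obtain ⟨γ, hγ⟩ : ∃ γ : ℤ, B * A.den = γ := int_of_sq (n := A.num ^ 2 + 16 * (A.den : ℤ) ^ 2) (by
    push_cast; rw [mul_pow, ← hB, ← hAd]; ring)
  obtain ⟨δ, hδ⟩ : ∃ δ : ℤ, C * A.den = δ := int_of_sq (n := A.num ^ 2 + 25 * (A.den : ℤ) ^ 2) (by
    push_cast; rw [mul_pow, ← hC, ← hAd]; ring)
  obtain ⟨a, ha⟩ := eight_dvd (α := A.num) (β := A.den) (γ := γ) (δ := δ) hodd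
    (by
      have : (γ : ℚ) ^ 2 = (A.num : ℚ) ^ 2 + 16 * (A.den : ℚ) ^ 2 := by
        rw [← hγ, mul_pow, ← hB, ← hAd]; ring
      exact_mod_cast this)
    (by
      have : (δ : ℚ) ^ 2 = (A.num : ℚ) ^ 2 + 25 * (A.den : ℚ) ^ 2 := by
        rw [← hδ, mul_pow, ← hC, ← hAd]; ring
      exact_mod_cast this)
  have ha0 : a ≠ 0 := by
    rintro rfl
    apply hA
    rw [hAn, ha]; simp
  have h4 : padicValInt 2 A.num = 3 + padicValInt 2 a := by
    rw [ha, padicValInt.mul (by norm_num) ha0]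
    congr 1
    have : (8 : ℤ) = ((2 ^ 3 : ℕ) : ℤ) := by norm_num
    rw [this, padicValInt.of_nat, padicValNat.prime_pow]
  have h5 : padicValNat 2 A.den = 0 := padicValNat.eq_zero_of_not_dvd (by omega)
  rw [padicValRat_def, h4, h5]
  omega

/-- (b) a rational point with `x, x + 16, x + 25` squares and `x` not zero has a double with
non-integral `x` -/
theorem L2 {A B C : ℚ} (hA : A ≠ 0) (hv : 0 ≤ padicValRat 2 A) (hB : A ^ 2 + 16 = B ^ 2)
    (hC : A ^ 2 + 25 = C ^ 2) : padicValRat 2 ((((A ^ 2) ^ 2 - 400) / (2 * (A * B * C))) ^ 2) < 0 := by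
  have h3 := three_le_val hA hv hB hC
  have e2 : padicValRat 2 (2 : ℚ) = 1 := by
    have := padicValRat.self (p := 2) (by norm_num)
    exact_mod_cast this
  have e16 : padicValRat 2 (16 : ℚ) = 4 := by
    rw [show (16 : ℚ) = 2 ^ 4 by norm_num, padicValRat.pow, e2]; norm_num
  have e25 : padicValRat 2 (25 : ℚ) = 0 := by
    rw [show (25 : ℚ) = ((25 : ℤ) : ℚ) by norm_num, padicValRat.of_int,
      padicValInt.eq_zero_of_not_dvd (by norm_num)]
    rfl
  have e400 : padicValRat 2 (-400 : ℚ) = 4 := by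
    rw [padicValRat.neg, show (400 : ℚ) = 16 * 25 by norm_num,
      padicValRat.mul (by norm_num) (by norm_num), e16, e25]; norm_num
  have hA2 : padicValRat 2 (A ^ 2) = 2 * padicValRat 2 A := by
    rw [padicValRat.pow]; rfl
  have hA4 : padicValRat 2 ((A ^ 2) ^ 2) = 4 * padicValRat 2 A := by
    rw [padicValRat.pow, hA2]; push_cast; ring
  have hA20 : A ^ 2 ≠ 0 := pow_ne_zero 2 hA
  obtain ⟨n16, v16⟩ := add_val (by norm_num : (16 : ℚ) ≠ 0) hA20 (by rw [e16, hA2]; omega)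
  obtain ⟨n25, v25⟩ := add_val (by norm_num : (25 : ℚ) ≠ 0) hA20 (by rw [e25, hA2]; omega)
  obtain ⟨n400, v400⟩ := add_val (by norm_num : (-400 : ℚ) ≠ 0) (pow_ne_zero 2 hA20)
    (by rw [e400, hA4]; omega)
  have hB0 : B ≠ 0 := by
    rintro rfl
    apply n16; rw [add_comm, hB]; ring
  have hC0 : C ≠ 0 := by
    rintro rfl
    apply n25; rw [add_comm, hC]; ring
  have hBv : padicValRat 2 B = 2 := by
    have h1 : padicValRat 2 (B ^ 2) = 2 * padicValRat 2 B := by rw [padicValRat.pow]; rfl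
    rw [← hB, add_comm, v16, e16] at h1
    omega
  have hCv : padicValRat 2 C = 0 := by
    have h1 : padicValRat 2 (C ^ 2) = 2 * padicValRat 2 C := by rw [padicValRat.pow]; rfl
    rw [← hC, add_comm, v25, e25] at h1
    omega
  have hs : (A ^ 2) ^ 2 - 400 = -400 + (A ^ 2) ^ 2 := by ring
  rw [padicValRat.pow, hs, padicValRat.div n400
    (mul_ne_zero two_ne_zero (mul_ne_zero (mul_ne_zero hA hB0) hC0)), v400, e400,
    padicValRat.mul two_ne_zero (mul_ne_zero (mul_ne_zero hA hB0) hC0),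
    padicValRat.mul (mul_ne_zero hA hB0) hC0, padicValRat.mul hA hB0, hBv, hCv, e2]
  push_cast
  linarith

/-- The rational points of `y² = x (x + 16) (x + 25)`. -/
theorem xT {x y : ℚ} (h : y ^ 2 = x * (x + 16) * (x + 25)) :
    x = 0 ∨ x = -16 ∨ x = -25 ∨ x = 20 ∨ x = -20 := by
  by_cases hy : y = 0
  · have h0 : x * (x + 16) * (x + 25) = 0 := by rw [← h, hy]; ring
    rcases mul_eq_zero.mp h0 with h0 | h0
    · rcases mul_eq_zero.mp h0 with h0 | h0
      · left; exact h0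
      · right; left; linarith
    · right; right; left; linarith
  · obtain ⟨hB, hC⟩ := dbl h hy
    have hmem := dbl_mem h hy
    have hv := val_nonneg hmem
    by_cases hA : (x ^ 2 - 400) / (2 * y) = 0
    · have h1 : x ^ 2 - 400 = 0 := by
        rcases div_eq_zero_iff.mp hA with h1 | h1
        · exact h1
        · exfalso; exact hy (by linarith)
      have h2 : (x - 20) * (x + 20) = 0 := by linear_combination h1
      rcases mul_eq_zero.mp h2 with h2 | h2
      · right; right; right; left; linarith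
      · right; right; right; right; linarith
    · exfalso
      have hv' : 0 ≤ padicValRat 2 ((x ^ 2 - 400) / (2 * y)) := by
        rw [padicValRat.pow] at hv
        push_cast at hv
        linarith
      have h2 := L2 hA hv' hB hC
      have hY : ((x ^ 2 - 400) / (2 * y)) * ((x ^ 2 + 32 * x + 400) / (2 * y)) *
          ((x ^ 2 + 50 * x + 400) / (2 * y)) ≠ 0 := by
        refine mul_ne_zero (mul_ne_zero hA ?_) ?_
        · intro h0
          rw [h0] at hB
          nlinarith [sq_nonneg ((x ^ 2 - 400) / (2 * y))]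
        · intro h0
          rw [h0] at hC
          nlinarith [sq_nonneg ((x ^ 2 - 400) / (2 * y))]
      have h3 := dbl_mem (x := ((x ^ 2 - 400) / (2 * y)) ^ 2) (y := ((x ^ 2 - 400) / (2 * y)) *
        ((x ^ 2 + 32 * x + 400) / (2 * y)) * ((x ^ 2 + 50 * x + 400) / (2 * y))) (by
          rw [hB, hC]; ring) hY
      exact absurd (val_nonneg h3) (not_le.mpr h2)

end Vale.Agent.P017.H262
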