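import Vale.Agent.P017.H185.QFex
import Vale.Agent.P017.H262.EQ

/-!
# P017 (helper262): points of `X₀(15)` over an imaginary quadratic field in which `5` is not a norm.
-/

namespace Vale.Agent.P017.H262

open NumberField Vale.Agent.P017.H185

variable {K : Type*} [Field K] [NumberField K] {d : ℕ}

/-- A point over `K = ℚ(√-d)` of `Y² = X (X + 16) (X + 25)`: if `5` is not a norm from `K`, then
either `X` is rational or `Y = λ X` with `λ` rational. -/
theorem point_dich (q : QF K d) (h5 : ∀ w : K, q.nm w ≠ 5) {X Y : K}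
    (h : Y ^ 2 = X * (X + 16) * (X + 25)) : (∃ r : ℚ, X = r) ∨ ∃ l : ℚ, Y = l * X := by
  obtain ⟨a, ha⟩ : ∃ a, a = q.re X := ⟨_, rfl⟩
  obtain ⟨b, hb⟩ : ∃ b, b = q.im X := ⟨_, rfl⟩
  obtain ⟨g, hg⟩ : ∃ g, g = q.re Y := ⟨_, rfl⟩
  obtain ⟨e, he⟩ : ∃ e, e = q.im Y := ⟨_, rfl⟩
  have hX : X = (a : K) + b * q.θ := by rw [ha, hb]; exact q.eq_re_im X
  have hY : Y = (g : K) + e * q.θ := by rw [hg, he]; exact q.eq_re_im Y
  by_cases hb0 : b = 0
  · left
    exact ⟨a, by rw [hX, hb0]; simp⟩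
  right
  obtain ⟨l, hl⟩ : ∃ l, l = e / b := ⟨_, rfl⟩
  obtain ⟨m, hm⟩ : ∃ m, m = g - l * a := ⟨_, rfl⟩
  have he' : e = l * b := by rw [hl]; field_simp
  have hg' : g = m + l * a := by rw [hm]; ring
  have hθ := q.hθ
  have hR : ((((g ^ 2 - d * e ^ 2 - (a ^ 3 - 3 * a * b ^ 2 * d) - 41 * (a ^ 2 - d * b ^ 2) - 400 * a) : ℚ) : K)) +
      ((2 * g * e - (3 * a ^ 2 * b - d * b ^ 3) - 82 * a * b - 400 * b : ℚ) : K) * q.θ = 0 := by
    rw [hX, hY] at h
    push_cast
    linear_combination h + (- (e : K) ^ 2 + 3 * a * b ^ 2 + b ^ 3 * q.θ + 41 * b ^ 2) * hθ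
  obtain ⟨hR1, hR2⟩ := q.uniq hR
  have hR2' : 2 * l * (m + l * a) - 3 * a ^ 2 + d * b ^ 2 - 82 * a - 400 = 0 := by
    have : b * (2 * l * (m + l * a) - 3 * a ^ 2 + d * b ^ 2 - 82 * a - 400) = 0 := by
      rw [← hR2, he', hg']; ring
    rcases mul_eq_zero.mp this with h | h
    · exact absurd h hb0
    · exact h
  have hE1 : (a ^ 2 + d * b ^ 2) * (l ^ 2 - 41 - 2 * a) = m ^ 2 := by
    rw [he', hg'] at hR1
    linear_combination a * hR2' - hR1
  have hpt : (l * (l ^ 2 - 41 - 2 * a) + m) ^ 2 = (l ^ 2 - 41 - 2 * a) *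
      ((l ^ 2 - 41 - 2 * a) + 16) * ((l ^ 2 - 41 - 2 * a) + 25) := by
    linear_combination (l ^ 2 - 41 - 2 * a) * hR2' - hE1
  have hdpos : (0 : ℚ) < d := by exact_mod_cast q.d_pos
  have hNpos : 0 < a ^ 2 + d * b ^ 2 := by
    have : 0 < b ^ 2 := by positivity
    nlinarith [sq_nonneg a, mul_pos hdpos this]
  have hxT : 0 ≤ l ^ 2 - 41 - 2 * a := by
    by_contra hcon
    push Not at hcon
    nlinarith [sq_nonneg m, mul_pos hNpos (neg_pos.mpr hcon)]
  have hnX : q.nm X = a ^ 2 + d * b ^ 2 := by rw [hX, q.nm_coords]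
  rcases xT hpt with h1 | h1 | h1 | h1 | h1
  · refine ⟨l, ?_⟩
    have hm0 : m = 0 := by
      have : m ^ 2 = 0 := by rw [← hE1, h1]; ring
      simpa using this
    rw [hX, hY, he', hg', hm0]
    push_cast
    ring
  · linarith
  · linarith
  · exfalso
    have hX0 : X ≠ 0 := by
      rintro rfl
      have h2 := q.nm_rat (0 : ℚ)
      simp only [Rat.cast_zero] at h2
      rw [hnX] at h2
      nlinarith
    apply h5 ((m : K) / (2 * X))
    have h2 : q.nm ((m : K) / (2 * X)) * q.nm (2 * X) = m ^ 2 := by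
      rw [← q.nm_mul, div_mul_cancel₀ _ (mul_ne_zero two_ne_zero hX0), q.nm_rat]
    have h3 : q.nm (2 * X) = 4 * (a ^ 2 + d * b ^ 2) := by
      rw [q.nm_mul, hnX]
      have := q.nm_rat (2 : ℚ)
      simp only [Rat.cast_ofNat] at this
      rw [this]; norm_num
    rw [h3, ← hE1, h1] at h2
    have h4 : (q.nm ((m : K) / (2 * X)) - 5) * (4 * (a ^ 2 + d * b ^ 2)) = 0 := by
      linear_combination h2
    rcases mul_eq_zero.mp h4 with h4 | h4
    · linarith
    · exfalso; linarith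
  · linarith

/-- The quartic model: if `5` is not a norm from `K` then a point `(c, z)` satisfies the
following equation with a rational number `x`. -/
theorem quartic_rat (q : QF K d) (h5 : ∀ w : K, q.nm w ≠ 5) {c z : K}
    (hz : z ^ 2 = c ^ 4 - 10 * c ^ 3 - 13 * c ^ 2 + 10 * c + 1) :
    ∃ x : ℚ, (8 - (x : K)) * c ^ 2 + 5 * ((x : K) + 1) * c + ((x : K) + 1) * ((x : K) + 2) = 0 := by
  obtain ⟨x, hx⟩ : ∃ x, x = (c ^ 2 - 5 * c - 3 + z) / 2 := ⟨_, rfl⟩
  have hz' : z = 2 * x - (c ^ 2 - 5 * c - 3) := by rw [hx]; ring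
  have hq : (8 - x) * c ^ 2 + 5 * (x + 1) * c + (x + 1) * (x + 2) = 0 := by
    rw [hz'] at hz
    linear_combination (1 / 4 : K) * hz
  by_cases hx3 : x = 3
  · refine ⟨3, ?_⟩
    rw [hx3] at hq
    push_cast
    exact hq
  have hcurve : (4 * (2 * (c * (x - 8) - 3 * x - 3) + x + 1)) ^ 2 =
      (4 * (x - 3)) * (4 * (x - 3) + 16) * (4 * (x - 3) + 25) := by
    linear_combination (-64 * (x - 8)) * hq
  rcases point_dich q h5 hcurve with ⟨r, hr⟩ | ⟨l, hl⟩
  · refine ⟨r / 4 + 3, ?_⟩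
    have : ((r / 4 + 3 : ℚ) : K) = x := by
      push_cast; rw [← hr]; ring
    rw [this]; exact hq
  · have hx3' : x - 3 ≠ 0 := sub_ne_zero.mpr hx3
    have hl' : (l : K) * (x - 3) = 2 * c * (x - 8) - 5 * (x + 1) := by
      linear_combination (-1 / 4 : K) * hl
    have hmain : (c ^ 2 - 5 * c - 3 - x) * ((l : K) - 9) - 8 * l - 18 = 0 := by
      have h1 : (x - 3) * ((c ^ 2 - 5 * c - 3 - x) * ((l : K) - 9) - 8 * l - 18) = 0 := by
        linear_combination (c ^ 2 - 5 * c - 3 - x - 8) * hl' - (2 * c - 14) * hq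
      rcases mul_eq_zero.mp h1 with h1 | h1
      · exact absurd h1 hx3'
      · exact h1
    have hl9 : (l : K) - 9 ≠ 0 := by
      intro h0
      have h1 : (l : K) = 9 := by linear_combination h0
      rw [h1] at hmain
      have : (90 : K) = 0 := by linear_combination -hmain
      norm_num at this
    refine ⟨(8 * l + 18) / (l - 9), ?_⟩
    have hx' : (((8 * l + 18) / (l - 9) : ℚ) : K) = c ^ 2 - 5 * c - 3 - x := by
      push_cast
      rw [div_eq_iff hl9]
      linear_combination -hmain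
    rw [hx']
    linear_combination hq

end Vale.Agent.P017.H262
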