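import Vale.Agent.P017.H262.Isog

/-!
# P017 (helper262): Galois-stable subgroups of order `3` and `5` of an elliptic curve.
-/

namespace Vale.Agent.P017.H262

open WeierstrassCurve

section Grp

variable {G : Type*} [AddCommGroup G] (C : AddSubgroup G)

theorem sub_prime {p : ℕ} [hp : Fact p.Prime] (hC : Nat.card C = p) :
    ∃ P ∈ C, P ≠ 0 ∧ p • P = 0 ∧ ∀ Q ∈ C, ∃ k : ℤ, Q = k • P := by
  have hfin : Finite C := Nat.finite_of_card_ne_zero (hC ▸ hp.1.ne_zero)
  have hnt : Nontrivial C := by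
    rw [← Finite.one_lt_card_iff_nontrivial, hC]; exact hp.1.one_lt
  obtain ⟨g, hg⟩ := exists_ne (0 : C)
  refine ⟨g, g.2, fun h => hg (Subtype.ext h), ?_, ?_⟩
  · have : Nat.card C • g = 0 := card_nsmul_eq_zero'
    rw [hC] at this
    have h2 := congrArg Subtype.val this
    simpa using h2
  · intro Q hQ
    obtain ⟨k, hk⟩ := AddSubgroup.mem_zmultiples_iff.mp
      (mem_zmultiples_of_prime_card hC hg (g' := ⟨Q, hQ⟩))
    refine ⟨k, ?_⟩
    have h2 := congrArg Subtype.val hk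
    simpa using h2.symm

theorem sub3 (hC : Nat.card C = 3) :
    ∃ P ∈ C, P ≠ 0 ∧ P + P = -P ∧ ∀ Q ∈ C, Q ≠ 0 → Q = P ∨ Q = -P := by
  have : Fact (Nat.Prime 3) := ⟨Nat.prime_three⟩
  obtain ⟨P, hP, hP0, h3, hall⟩ := sub_prime C hC
  have h3' : P + P + P = 0 := by
    rw [← h3]; abel
  have h2 : P + P = -P := eq_neg_of_add_eq_zero_left h3'
  refine ⟨P, hP, hP0, h2, ?_⟩
  intro Q hQ hQ0
  obtain ⟨k, rfl⟩ := hall Q hQ
  have hk : k • P = (k % 3) • P := by
    conv_lhs => rw [← Int.emod_add_mul_ediv k 3]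
    rw [add_zsmul, mul_comm, mul_zsmul]
    have : (3 : ℤ) • P = 0 := by rw [← h3]; norm_cast
    rw [this, zsmul_zero, add_zero]
  rw [hk] at hQ0 ⊢
  have h0 : k % 3 = 0 ∨ k % 3 = 1 ∨ k % 3 = 2 := by omega
  rcases h0 with h0 | h0 | h0 <;> rw [h0] at hQ0 ⊢
  · simp at hQ0
  · left; simp
  · right; rw [← h2]; exact two_zsmul P

theorem sub5 (hC : Nat.card C = 5) :
    ∃ P ∈ C, P ≠ 0 ∧ P + P ≠ 0 ∧ P ≠ P + P ∧ P ≠ -(P + P) ∧ (P + P) + (P + P) = -P ∧
      ∀ Q ∈ C, Q ≠ 0 → Q = P ∨ Q = -P ∨ Q = P + P ∨ Q = -(P + P) := by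
  have : Fact (Nat.Prime 5) := ⟨Nat.prime_five⟩
  obtain ⟨P, hP, hP0, h5, hall⟩ := sub_prime C hC
  have h5' : (P + P) + (P + P) + P = 0 := by
    rw [← h5]; abel
  have h4 : (P + P) + (P + P) = -P := eq_neg_of_add_eq_zero_left h5'
  refine ⟨P, hP, hP0, ?_, ?_, ?_, h4, ?_⟩
  · intro h0
    rw [h0] at h4
    apply hP0
    rw [add_zero] at h4
    exact neg_eq_zero.mp h4.symm
  · intro h0
    apply hP0
    have : P + 0 = P + P := by rw [add_zero]; exact h0
    exact (add_left_cancel this).symm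
  · intro h0
    apply hP0
    have h3 : P + P + P = 0 := by nth_rewrite 3 [h0]; abel
    have : P + (P + P + P) + P = 0 := by rw [← h5']; abel
    rw [h3, add_zero] at this
    rw [this, zero_add] at h3
    exact h3
  intro Q hQ hQ0
  obtain ⟨k, rfl⟩ := hall Q hQ
  have hk : k • P = (k % 5) • P := by
    conv_lhs => rw [← Int.emod_add_mul_ediv k 5]
    rw [add_zsmul, mul_comm, mul_zsmul]
    have : (5 : ℤ) • P = 0 := by rw [← h5]; norm_cast
    rw [this, zsmul_zero, add_zero]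
  rw [hk] at hQ0 ⊢
  have h0 : k % 5 = 0 ∨ k % 5 = 1 ∨ k % 5 = 2 ∨ k % 5 = 3 ∨ k % 5 = 4 := by omega
  rcases h0 with h0 | h0 | h0 | h0 | h0 <;> rw [h0] at hQ0 ⊢
  · simp at hQ0
  · left; simp
  · right; right; left; exact two_zsmul P
  · right; right; right
    rw [eq_neg_iff_add_eq_zero, ← h5']
    have : (3 : ℤ) • P = P + P + P := by
      rw [show (3 : ℤ) = 2 + 1 by norm_num, add_zsmul, two_zsmul, one_zsmul]
    rw [this]; abel
  · right; left
    rw [← h4]
    have : (4 : ℤ) • P = (P + P) + (P + P) := by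
      rw [show (4 : ℤ) = 2 + 2 by norm_num, add_zsmul, two_zsmul]
    exact this

end Grp

section Gal

variable {K : Type*} [Field K] [CharZero K] [DecidableEq (AlgebraicClosure K)]

theorem three_root (W : WeierstrassCurve K)
    (C : AddSubgroup (W⁄(AlgebraicClosure K)).toAffine.Point) (hC : Nat.card C = 3)
    (hG : ∀ σ : AlgebraicClosure K ≃ₐ[K] AlgebraicClosure K, ∀ P ∈ C,
      Affine.Point.map (W' := W) (σ : AlgebraicClosure K →ₐ[K] AlgebraicClosure K) P ∈ C) :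
    ∃ x : K, 3 * x ^ 4 + W.b₂ * x ^ 3 + 3 * W.b₄ * x ^ 2 + 3 * W.b₆ * x + W.b₈ = 0 := by
  obtain ⟨P, hP, hP0, h2, hall⟩ := sub3 C hC
  rcases P with _ | ⟨x, y, h⟩
  · exact absurd rfl hP0
  have hx : ∀ σ : AlgebraicClosure K ≃ₐ[K] AlgebraicClosure K, σ x = x := by
    intro σ
    have h3 := hG σ _ hP
    rw [Affine.Point.map_some] at h3
    rcases hall _ h3 (Affine.Point.some_ne_zero _) with h4 | h4
    · rw [Affine.Point.some.injEq] at h4
      exact h4.1
    · rw [Affine.Point.neg_some, Affine.Point.some.injEq] at h4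
      exact h4.1
  obtain ⟨x₀, hx₀⟩ := (InfiniteGalois.mem_range_algebraMap_iff_fixed x).mpr hx
  refine ⟨x₀, ?_⟩
  rw [Affine.Point.neg_some] at h2
  have h5 := dbl_x _ h2
  apply (algebraMap K (AlgebraicClosure K)).injective
  simp only [baseChange, map_b₂, map_b₄, map_b₆, map_b₈, ← hx₀] at h5
  simp only [map_add, map_mul, map_pow, map_ofNat, map_zero]
  linear_combination h5

theorem five_sp (W : WeierstrassCurve K)
    (C : AddSubgroup (W⁄(AlgebraicClosure K)).toAffine.Point) (hC : Nat.card C = 5)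
    (hG : ∀ σ : AlgebraicClosure K ≃ₐ[K] AlgebraicClosure K, ∀ P ∈ C,
      Affine.Point.map (W' := W) (σ : AlgebraicClosure K →ₐ[K] AlgebraicClosure K) P ∈ C) :
    ∃ s p : K, s ^ 2 - 4 * p ≠ 0 ∧ -W.c₆ / 216 = s ^ 3 - 6 * p * s + W.c₄ / 24 * s ∧
      (-W.c₄ / 48 + s ^ 2 - p) ^ 2 = (s ^ 2 - 4 * p) * (2 * s ^ 2 + p) := by
  obtain ⟨P, hP, hP0, h2P, hn1, hn2, h4P, hall⟩ := sub5 C hC
  obtain ⟨Q, hQ⟩ : ∃ Q, Q = P + P := ⟨_, rfl⟩
  rw [← hQ] at h2P hn1 hn2 h4P hall
  rcases P with _ | ⟨x₁, y₁, h₁⟩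
  · exact absurd rfl hP0
  rcases Q with _ | ⟨x₂, y₂, h₂⟩
  · exact absurd rfl h2P
  have hne : x₁ ≠ x₂ := by
    intro h0
    rcases Affine.Point.X_eq_iff.mp h0 with h3 | h3
    · exact hn1 h3
    · exact hn2 h3
  have hd1 := dbl_x _ hQ.symm
  rw [Affine.Point.neg_some] at h4P
  have hd2 := dbl_x _ h4P
  have hx : ∀ σ : AlgebraicClosure K ≃ₐ[K] AlgebraicClosure K,
      (σ x₁ = x₁ ∧ σ x₂ = x₂) ∨ (σ x₁ = x₂ ∧ σ x₂ = x₁) := by
    intro σ
    have h3 := hG σ _ hP
    have hQ' := congrArg (Affine.Point.map (W' := W)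
      (σ : AlgebraicClosure K →ₐ[K] AlgebraicClosure K)) hQ
    rw [map_add] at hQ'
    rw [Affine.Point.map_some, Affine.Point.map_some] at hQ'
    rw [Affine.Point.map_some] at h3
    rcases hall _ h3 (Affine.Point.some_ne_zero _) with h4 | h4 | h4 | h4
    · left
      rw [h4, ← hQ, Affine.Point.some.injEq] at hQ'
      rw [Affine.Point.some.injEq] at h4
      exact ⟨h4.1, hQ'.1⟩
    · left
      rw [h4, ← neg_add, ← hQ, Affine.Point.neg_some, Affine.Point.some.injEq] at hQ'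
      rw [Affine.Point.neg_some, Affine.Point.some.injEq] at h4
      exact ⟨h4.1, hQ'.1⟩
    · right
      rw [h4, h4P, Affine.Point.some.injEq] at hQ'
      rw [Affine.Point.some.injEq] at h4
      exact ⟨h4.1, hQ'.1⟩
    · right
      rw [h4, ← neg_add, h4P, Affine.Point.neg_some, Affine.Point.some.injEq] at hQ'
      rw [Affine.Point.neg_some, Affine.Point.some.injEq] at h4
      exact ⟨h4.1, hQ'.1⟩
  have hS : ∀ σ : AlgebraicClosure K ≃ₐ[K] AlgebraicClosure K, σ (x₁ + x₂) = x₁ + x₂ := by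
    intro σ
    rw [map_add]
    rcases hx σ with ⟨h3, h4⟩ | ⟨h3, h4⟩ <;> rw [h3, h4]
    exact add_comm _ _
  have hT : ∀ σ : AlgebraicClosure K ≃ₐ[K] AlgebraicClosure K, σ (x₁ * x₂) = x₁ * x₂ := by
    intro σ
    rw [map_mul]
    rcases hx σ with ⟨h3, h4⟩ | ⟨h3, h4⟩ <;> rw [h3, h4]
    exact mul_comm _ _
  obtain ⟨s₀, hs₀⟩ := (InfiniteGalois.mem_range_algebraMap_iff_fixed _).mpr hS
  obtain ⟨p₀, hp₀⟩ := (InfiniteGalois.mem_range_algebraMap_iff_fixed _).mpr hT
  simp only [baseChange, map_b₂, map_b₄, map_b₆, map_b₈] at hd1 hd2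
  have hb := congrArg (algebraMap K (AlgebraicClosure K)) W.b_relation
  simp only [map_sub, map_mul, map_pow, map_ofNat] at hb
  obtain ⟨e1, e2⟩ := five_alg (-(algebraMap K (AlgebraicClosure K) W.c₄) / 48)
    (-(algebraMap K (AlgebraicClosure K) W.c₆) / 864)
    (x₁ + algebraMap K (AlgebraicClosure K) W.b₂ / 12)
    (x₂ + algebraMap K (AlgebraicClosure K) W.b₂ / 12)
    (by
      simp only [c₄, c₆, map_sub, map_add, map_mul, map_neg, map_pow, map_ofNat]
      linear_combination hd1 - (1 / 4 : AlgebraicClosure K) * hb)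
    (by
      simp only [c₄, c₆, map_sub, map_add, map_mul, map_neg, map_pow, map_ofNat]
      linear_combination hd2 - (1 / 4 : AlgebraicClosure K) * hb)
    (by
      intro h0
      apply hne
      linear_combination h0)
  refine ⟨s₀ + W.b₂ / 6, p₀ + s₀ * W.b₂ / 12 + W.b₂ ^ 2 / 144, ?_, ?_, ?_⟩
  · intro h0
    have h3 := congrArg (algebraMap K (AlgebraicClosure K)) h0
    simp only [map_sub, map_add, map_mul, map_div₀, map_pow, map_ofNat, map_zero, hs₀, hp₀] at h3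
    have h4 : (x₁ - x₂) ^ 2 = 0 := by linear_combination h3
    exact hne (sub_eq_zero.mp (by simpa using h4))
  · apply (algebraMap K (AlgebraicClosure K)).injective
    simp only [map_sub, map_add, map_mul, map_div₀, map_pow, map_ofNat, map_neg, hs₀, hp₀]
    linear_combination e1
  · apply (algebraMap K (AlgebraicClosure K)).injective
    simp only [map_sub, map_add, map_mul, map_div₀, map_pow, map_ofNat, map_neg, hs₀, hp₀]
    linear_combination e2

end Gal

end Vale.Agent.P017.H262
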