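import Mathlib

/-!
# P017 (helper262): rational subgroups of order `3` and `5` and the corresponding parametrisations
of the `j`-invariant.
-/

namespace Vale.Agent.P017.H262

open WeierstrassCurve

section Dbl

variable {F : Type*} [Field F] [DecidableEq F]

/-- the `x`-coordinate of a double -/
theorem dbl_x (W : WeierstrassCurve F) {x y x' y' : F} {h : W.toAffine.Nonsingular x y}
    {h' : W.toAffine.Nonsingular x' y'}
    (hadd : Affine.Point.some x y h + Affine.Point.some x y h = Affine.Point.some x' y' h') :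
    x' * (4 * x ^ 3 + W.b₂ * x ^ 2 + 2 * W.b₄ * x + W.b₆) =
      x ^ 4 - W.b₄ * x ^ 2 - 2 * W.b₆ * x - W.b₈ := by
  have heq : y ^ 2 + W.a₁ * x * y + W.a₃ * y = x ^ 3 + W.a₂ * x ^ 2 + W.a₄ * x + W.a₆ := by
    have := h.1
    rwa [Affine.equation_iff] at this
  by_cases hy : y = W.toAffine.negY x y
  · rw [Affine.Point.add_self_of_Y_eq hy] at hadd
    exact absurd hadd.symm (Affine.Point.some_ne_zero h')
  · rw [Affine.Point.add_self_of_Y_ne hy] at hadd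
    have hx : W.toAffine.addX x x (W.toAffine.slope x x y y) = x' := by
      have := (Affine.Point.some.injEq _ _ _ _ _ _).mp hadd
      exact this.1
    have hden : 2 * y + W.a₁ * x + W.a₃ ≠ 0 := by
      intro h0
      apply hy
      simp only [Affine.negY]
      linear_combination h0
    have hs : W.toAffine.slope x x y y =
        (3 * x ^ 2 + 2 * W.a₂ * x + W.a₄ - W.a₁ * y) / (2 * y + W.a₁ * x + W.a₃) := by
      rw [Affine.slope_of_Y_ne rfl hy]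
      simp only [Affine.negY]
      congr 1
      ring
    have hd2 : 4 * x ^ 3 + W.b₂ * x ^ 2 + 2 * W.b₄ * x + W.b₆ = (2 * y + W.a₁ * x + W.a₃) ^ 2 := by
      simp only [b₂, b₄, b₆]
      linear_combination (-4 : F) * heq
    rw [← hx, hs, hd2]
    have hcl : ∀ N D : F, D ≠ 0 → ((N / D) ^ 2 + W.a₁ * (N / D) - W.a₂ - x - x) * D ^ 2 =
        N ^ 2 + W.a₁ * N * D - (W.a₂ + 2 * x) * D ^ 2 := by
      intro N D hD
      field_simp
      ring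
    simp only [Affine.addX]
    rw [hcl _ _ hden]
    simp only [b₄, b₆, b₈]
    linear_combination (-(W.a₁ ^ 2 + 4 * W.a₂ + 8 * x)) * heq

end Dbl

section Alg

variable {K : Type*} [Field K] [CharZero K]

theorem three_param (W : WeierstrassCurve K) [W.IsElliptic] {x : K}
    (hx : 3 * x ^ 4 + W.b₂ * x ^ 3 + 3 * W.b₄ * x ^ 2 + 3 * W.b₆ * x + W.b₈ = 0) :
    ∃ h : K, h ≠ 0 ∧ W.j = (h + 27) * (h + 3) ^ 3 / h := by
  obtain ⟨u, hu⟩ : ∃ u, u = 12 * x + W.b₂ := ⟨_, rfl⟩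
  have hux : x = (u - W.b₂) / 12 := by rw [hu]; ring
  have hrel : u ^ 4 - 6 * W.c₄ * u ^ 2 - 8 * W.c₆ * u - 3 * W.c₄ ^ 2 = 0 := by
    have hb := W.b_relation
    rw [hu]
    simp only [c₄, c₆]
    linear_combination 6912 * hx + (-1728 : K) * hb
  have hΔ : W.Δ ≠ 0 := W.isUnit_Δ.ne_zero
  have h1728 := W.c_relation
  have hj : W.j = W.c₄ ^ 3 / W.Δ := by
    rw [WeierstrassCurve.j, div_eq_inv_mul, Units.val_inv_eq_inv_val, W.coe_Δ']
  rw [hj]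
  have hfac : 110592 * u ^ 2 * W.Δ = -(W.c₄ - u ^ 2) ^ 3 * (9 * W.c₄ - u ^ 2) := by
    linear_combination 64 * u ^ 2 * h1728 +
      (8 * u * W.c₆ + (u ^ 4 - 6 * W.c₄ * u ^ 2 - 3 * W.c₄ ^ 2)) * hrel
  by_cases hu0 : u = 0
  · have hc4 : W.c₄ = 0 := by
      rw [hu0] at hrel
      have : W.c₄ ^ 2 = 0 := by linear_combination (-1 / 3 : K) * hrel
      simpa using this
    refine ⟨-27, by norm_num, ?_⟩
    rw [hc4]
    norm_num
  · have hl : 110592 * u ^ 2 * W.Δ ≠ 0 :=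
      mul_ne_zero (mul_ne_zero (by norm_num) (pow_ne_zero 2 hu0)) hΔ
    have h1 : W.c₄ - u ^ 2 ≠ 0 := by
      intro h0
      apply hl
      rw [hfac, h0]; ring
    have h2 : 9 * W.c₄ - u ^ 2 ≠ 0 := by
      intro h0
      apply hl
      rw [hfac, h0]; ring
    refine ⟨-3 * (9 * W.c₄ - u ^ 2) / (W.c₄ - u ^ 2), div_ne_zero (mul_ne_zero (by norm_num) h2) h1, ?_⟩
    have e1 : -3 * (9 * W.c₄ - u ^ 2) / (W.c₄ - u ^ 2) + 27 = -24 * u ^ 2 / (W.c₄ - u ^ 2) := by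
      field_simp; ring
    have e2 : -3 * (9 * W.c₄ - u ^ 2) / (W.c₄ - u ^ 2) + 3 = -24 * W.c₄ / (W.c₄ - u ^ 2) := by
      field_simp; ring
    rw [e1, e2, div_eq_iff hΔ]
    generalize W.c₄ = c at *
    generalize W.Δ = D at *
    have h3 : (-24 * u ^ 2 / (c - u ^ 2) * (-24 * c / (c - u ^ 2)) ^ 3 /
        (-3 * (9 * c - u ^ 2) / (c - u ^ 2))) * D =
        c ^ 3 * (110592 * u ^ 2 * D) / (-(c - u ^ 2) ^ 3 * (9 * c - u ^ 2)) := by
      field_simp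
      ring
    rw [h3, hfac, mul_div_assoc, div_self, mul_one]
    rw [← hfac]; exact hl

theorem five_alg (A B x₁ x₂ : K)
    (h1 : x₂ * (4 * (x₁ ^ 3 + A * x₁ + B)) = x₁ ^ 4 - 2 * A * x₁ ^ 2 - 8 * B * x₁ + A ^ 2)
    (h2 : x₁ * (4 * (x₂ ^ 3 + A * x₂ + B)) = x₂ ^ 4 - 2 * A * x₂ ^ 2 - 8 * B * x₂ + A ^ 2)
    (hne : x₁ ≠ x₂) :
    4 * B = (x₁ + x₂) ^ 3 - 6 * (x₁ * x₂) * (x₁ + x₂) - 2 * A * (x₁ + x₂) ∧
    (A + (x₁ + x₂) ^ 2 - x₁ * x₂) ^ 2 = ((x₁ + x₂) ^ 2 - 4 * (x₁ * x₂)) *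
      (2 * (x₁ + x₂) ^ 2 + x₁ * x₂) := by
  have hD : 4 * B = (x₁ + x₂) ^ 3 - 6 * (x₁ * x₂) * (x₁ + x₂) - 2 * A * (x₁ + x₂) := by
    have hne' : x₁ - x₂ ≠ 0 := sub_ne_zero.mpr hne
    have : (x₁ - x₂) * (4 * B - ((x₁ + x₂) ^ 3 - 6 * (x₁ * x₂) * (x₁ + x₂) - 2 * A * (x₁ + x₂))) = 0 := by
      linear_combination h1 - h2
    rcases mul_eq_zero.mp this with h | h
    · exact absurd h hne'
    · linear_combination h
  refine ⟨hD, ?_⟩
  linear_combination (-1 / 2 : K) * (h1 + h2) + (3 / 2 : K) * (x₁ + x₂) * hD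

theorem five_param (W : WeierstrassCurve K) [W.IsElliptic] {s p : K} 
    (hne : s ^ 2 - 4 * p ≠ 0) (h1 : -W.c₆ / 216 = s ^ 3 - 6 * p * s + W.c₄ / 24 * s)
    (h2 : (-W.c₄ / 48 + s ^ 2 - p) ^ 2 = (s ^ 2 - 4 * p) * (2 * s ^ 2 + p)) :
    ∃ t : K, t ≠ 0 ∧ W.j = (t ^ 2 + 10 * t + 5) ^ 3 / t := by
  have hΔ : W.Δ ≠ 0 := W.isUnit_Δ.ne_zero
  have h1728 := W.c_relation
  have hj : W.j = W.c₄ ^ 3 / W.Δ := by
    rw [WeierstrassCurve.j, div_eq_inv_mul, Units.val_inv_eq_inv_val, W.coe_Δ']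
  rw [hj]
  generalize W.c₄ = c at *
  generalize W.c₆ = c6 at *
  generalize W.Δ = Δ at *
  obtain ⟨a, ha⟩ : ∃ a, a = -c / 48 + s ^ 2 - p := ⟨_, rfl⟩
  obtain ⟨D, hD⟩ : ∃ D, D = s ^ 2 - 4 * p := ⟨_, rfl⟩
  rw [← ha, ← hD] at h2
  rw [← hD] at hne
  have hp : p = (a ^ 2 - 2 * D ^ 2) / (9 * D) := by
    rw [eq_div_iff (mul_ne_zero (by norm_num) hne)]
    linear_combination (-1 : K) * h2 + 2 * D * hD
  have hs : s ^ 2 = (4 * a ^ 2 + D ^ 2) / (9 * D) := by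
    rw [eq_div_iff (mul_ne_zero (by norm_num) hne)]
    linear_combination (-4 : K) * h2 - D * hD
  have hc : c = 16 * (a ^ 2 - 3 * a * D + D ^ 2) / D := by
    have : c = 48 * (s ^ 2 - p - a) := by rw [ha]; ring
    rw [this, hs, hp]
    field_simp
    ring
  have hc6 : c6 = -216 * (s * (s ^ 2 - 6 * p + c / 24)) := by
    linear_combination (-216 : K) * h1
  have hc6' : c6 ^ 2 = 46656 * (s ^ 2 * (s ^ 2 - 6 * p + c / 24) ^ 2) := by
    rw [hc6]; ring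
  have hΔ' : Δ = D ^ 2 * (4 * a - 11 * D) := by
    have h3 : 1728 * Δ = 1728 * (D ^ 2 * (4 * a - 11 * D)) := by
      rw [h1728, hc6', hs, hp, hc]
      field_simp
      ring
    have : (1728 : K) ≠ 0 := by norm_num
    exact mul_left_cancel₀ this h3
  have h4 : 4 * a - 11 * D ≠ 0 := by
    intro h0
    apply hΔ
    rw [hΔ', h0, mul_zero]
  refine ⟨(4 * a - 11 * D) / D, div_ne_zero h4 hne, ?_⟩
  have e1 : ((4 * a - 11 * D) / D) ^ 2 + 10 * ((4 * a - 11 * D) / D) + 5 =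
      16 * (a ^ 2 - 3 * a * D + D ^ 2) / D ^ 2 := by
    field_simp
    ring
  rw [e1, hc, hΔ']
  field_simp

end Alg

end Vale.Agent.P017.H262
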