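import Mathlib

/-!
# P017 (helper262): local computations at a prime above `2`.
-/

namespace Vale.Agent.P017.H262

section Val

variable {K : Type*} [Field K] {Γ : Type*} [LinearOrderedCommGroupWithZero Γ] (w : Valuation K Γ)

theorem residue_eq_zero_iff' (x : w.valuationSubring) :
    IsLocalRing.residue w.valuationSubring x = 0 ↔ w (x : K) < 1 := by
  rw [IsLocalRing.residue_eq_zero_iff, IsLocalRing.mem_maximalIdeal, mem_nonunits_iff]
  have h1 : IsUnit x ↔ w (x : K) = 1 :=
    Valuation.Integers.isUnit_iff_valuation_eq_one (Valuation.integer.integers w) (x := x)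
  rw [h1]
  constructor
  · intro h
    exact lt_of_le_of_ne x.2 h
  · intro h
    exact h.ne

theorem w_int_le (n : ℤ) : w (n : K) ≤ 1 := by
  have : (n : K) ∈ w.valuationSubring := intCast_mem _ n
  exact this

theorem w_even {n : ℤ} (h2 : w 2 < 1) (hn : n % 2 = 0) : w (n : K) < 1 := by
  obtain ⟨k, rfl⟩ : ∃ k, n = 2 * k := ⟨n / 2, by omega⟩
  push_cast
  rw [map_mul]
  calc w 2 * w (k : K) ≤ w 2 * 1 := by gcongr; exact w_int_le w k
    _ < 1 := by rw [mul_one]; exact h2

theorem w_odd {n : ℤ} (h2 : w 2 < 1) (hn : n % 2 = 1) : w (n : K) = 1 := by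
  have h1 := w_even w h2 (n := n - 1) (by omega)
  have h3 : (n : K) = 1 + ((n - 1 : ℤ) : K) := by push_cast; ring
  rw [h3, Valuation.map_add_eq_of_lt_left]
  · simp
  · rw [map_one]; exact h1

theorem rat_tri [CharZero K] (h2 : w 2 < 1) (x : ℚ) :
    1 < w (x : K) ∨ w (x : K) < 1 ∨ w ((x : K) - 1) < 1 := by
  have hden : (x.den : K) ≠ 0 := by exact_mod_cast x.den_ne_zero
  have hx : (x : K) = (x.num : K) / (x.den : K) := by
    conv_lhs => rw [← Rat.num_div_den x]
    push_cast; rfl
  have hden' : ((x.den : ℤ) : K) = (x.den : K) := by simp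
  rcases Int.emod_two_eq_zero_or_one (x.den : ℤ) with hd | hd
  · left
    have hn : x.num % 2 = 1 := by
      by_contra hcon
      have h3 : 2 ∣ x.num.natAbs := by omega
      have h4 : 2 ∣ x.den := by omega
      have := Nat.dvd_gcd h3 h4
      rw [x.reduced] at this
      omega
    rw [hx, map_div₀, w_odd w h2 hn, ← hden', one_div]
    have h5 := w_even w h2 hd
    rw [hden'] at h5 ⊢
    exact (one_lt_inv₀ (by rw [zero_lt_iff]; simpa using hden)).mpr h5
  · right
    have hdv : w (x.den : K) = 1 := by rw [← hden']; exact w_odd w h2 hd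
    rcases Int.emod_two_eq_zero_or_one x.num with hn | hn
    · left
      rw [hx, map_div₀, hdv, div_one]
      exact w_even w h2 hn
    · right
      have h6 : (x : K) - 1 = ((x.num - x.den : ℤ) : K) / x.den := by
        rw [hx]; push_cast; field_simp
      rw [h6, map_div₀, hdv, div_one]
      exact w_even w h2 (by omega)

theorem ext' {x y : w.valuationSubring}
    (h : w.valuationSubring.subtype x = w.valuationSubring.subtype y) : x = y := Subtype.ext h

theorem two_res (h2 : w 2 < 1) : (2 : IsLocalRing.ResidueField w.valuationSubring) = 0 := by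
  have := (residue_eq_zero_iff' w 2).mpr h2
  rw [map_ofNat] at this
  exact this

/-- the potentially good case forces `c` to be a unit -/
theorem c_unit (h2 : w 2 < 1) {t c : K} (ht : w t = 1)
    (hc : t * (c ^ 4 - 9 * c ^ 3 - 9 * c - 1) = 125 * c ^ 3 + t ^ 2 * c) : w c = 1 := by
  obtain ⟨T, hT⟩ : ∃ T : w.valuationSubring, (T : K) = t := ⟨⟨t, ht.le⟩, rfl⟩
  have hT0 : IsLocalRing.residue w.valuationSubring T ≠ 0 := by
    intro h0
    rw [residue_eq_zero_iff', hT, ht] at h0
    exact lt_irrefl _ h0
  rcases lt_trichotomy (w c) 1 with h | h | h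
  · exfalso
    obtain ⟨C, hC⟩ : ∃ C : w.valuationSubring, (C : K) = c := ⟨⟨c, h.le⟩, rfl⟩
    have hC0 : IsLocalRing.residue w.valuationSubring C = 0 := by
      rw [residue_eq_zero_iff', hC]; exact h
    have he : T * (C ^ 4 - 9 * C ^ 3 - 9 * C - 1) = 125 * C ^ 3 + T ^ 2 * C := by
      apply ext' w
      simp only [map_mul, map_sub, map_add, map_pow, map_ofNat, map_one, map_neg, map_zero,
        ValuationSubring.subtype_apply]
      rw [hT, hC]; exact hc
    have he' := congrArg (IsLocalRing.residue w.valuationSubring) he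
    simp only [map_mul, map_sub, map_add, map_pow, map_ofNat, map_one, hC0] at he'
    apply hT0
    linear_combination -he'
  · exact h
  · exfalso
    have hc0 : c ≠ 0 := by rintro rfl; simp at h
    have h' : w c⁻¹ < 1 := by
      rw [map_inv₀]; exact inv_lt_one_of_one_lt₀ h
    obtain ⟨C, hC⟩ : ∃ C : w.valuationSubring, (C : K) = c⁻¹ := ⟨⟨c⁻¹, h'.le⟩, rfl⟩
    have hC0 : IsLocalRing.residue w.valuationSubring C = 0 := by
      rw [residue_eq_zero_iff', hC]; exact h'
    have he : T * (1 - 9 * C - 9 * C ^ 3 - C ^ 4) = 125 * C + T ^ 2 * C ^ 3 := by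
      apply ext' w
      simp only [map_mul, map_sub, map_add, map_pow, map_ofNat, map_one, map_neg, map_zero,
        ValuationSubring.subtype_apply]
      rw [hT, hC]
      field_simp
      linear_combination hc
    have he' := congrArg (IsLocalRing.residue w.valuationSubring) he
    simp only [map_mul, map_sub, map_add, map_pow, map_ofNat, map_one, hC0] at he'
    apply hT0
    linear_combination he'

/-- `j` is not integral when `t` is not a unit -/
theorem j_big (h2 : w 2 < 1) {t : K} (ht0 : t ≠ 0) (ht : w t ≠ 1) :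
    1 < w ((t ^ 2 + 10 * t + 5) ^ 3 / t) := by
  have hwt : 0 < w t := by rw [zero_lt_iff]; simpa using ht0
  have h5k : (5 : IsLocalRing.ResidueField w.valuationSubring) ≠ 0 := by
    intro h0
    have : (1 : IsLocalRing.ResidueField w.valuationSubring) = 0 := by linear_combination h0 - 2 * two_res w h2
    exact one_ne_zero this
  rcases lt_or_gt_of_ne ht with h | h
  · obtain ⟨T, hT⟩ : ∃ T : w.valuationSubring, (T : K) = t := ⟨⟨t, h.le⟩, rfl⟩
    have hT0 : IsLocalRing.residue w.valuationSubring T = 0 := by
      rw [residue_eq_zero_iff', hT]; exact h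
    have h1 : ¬ w (t ^ 2 + 10 * t + 5) < 1 := by
      intro hlt
      have e : w.valuationSubring.subtype (T ^ 2 + 10 * T + 5) = t ^ 2 + 10 * t + 5 := by
        simp only [map_mul, map_sub, map_add, map_pow, map_ofNat, map_one, map_neg, map_zero, ValuationSubring.subtype_apply]; rw [hT]
      rw [← e, ValuationSubring.subtype_apply, ← residue_eq_zero_iff'] at hlt
      simp only [map_mul, map_add, map_pow, map_ofNat, hT0] at hlt
      apply h5k
      linear_combination hlt
    have h1' : w (t ^ 2 + 10 * t + 5) ≤ 1 := by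
      have e : w.valuationSubring.subtype (T ^ 2 + 10 * T + 5) = t ^ 2 + 10 * t + 5 := by
        simp only [map_mul, map_sub, map_add, map_pow, map_ofNat, map_one, map_neg, map_zero, ValuationSubring.subtype_apply]; rw [hT]
      rw [← e, ValuationSubring.subtype_apply]; exact (w.mem_valuationSubring_iff _).mp (Subtype.property _)
    have h1'' : w (t ^ 2 + 10 * t + 5) = 1 := le_antisymm h1' (not_lt.mp h1)
    rw [map_div₀, map_pow, h1'', one_pow, one_div]
    exact (one_lt_inv₀ hwt).mpr h
  · have h' : w t⁻¹ < 1 := by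
      rw [map_inv₀]; exact inv_lt_one_of_one_lt₀ h
    obtain ⟨T, hT⟩ : ∃ T : w.valuationSubring, (T : K) = t⁻¹ := ⟨⟨t⁻¹, h'.le⟩, rfl⟩
    have hT0 : IsLocalRing.residue w.valuationSubring T = 0 := by
      rw [residue_eq_zero_iff', hT]; exact h'
    have e : w.valuationSubring.subtype (1 + 10 * T + 5 * T ^ 2) = 1 + 10 * t⁻¹ + 5 * t⁻¹ ^ 2 := by
      simp only [map_mul, map_sub, map_add, map_pow, map_ofNat, map_one, map_neg, map_zero, ValuationSubring.subtype_apply]; rw [hT]
    have h1 : ¬ w (1 + 10 * t⁻¹ + 5 * t⁻¹ ^ 2) < 1 := by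
      intro hlt
      rw [← e, ValuationSubring.subtype_apply, ← residue_eq_zero_iff'] at hlt
      simp only [map_mul, map_add, map_pow, map_ofNat, map_one, hT0] at hlt
      apply one_ne_zero (α := IsLocalRing.ResidueField w.valuationSubring)
      linear_combination hlt
    have h1' : w (1 + 10 * t⁻¹ + 5 * t⁻¹ ^ 2) ≤ 1 := by
      rw [← e, ValuationSubring.subtype_apply]; exact (w.mem_valuationSubring_iff _).mp (Subtype.property _)
    have h1'' : w (1 + 10 * t⁻¹ + 5 * t⁻¹ ^ 2) = 1 := le_antisymm h1' (not_lt.mp h1)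
    have e2 : (t ^ 2 + 10 * t + 5) ^ 3 / t = t ^ 5 * (1 + 10 * t⁻¹ + 5 * t⁻¹ ^ 2) ^ 3 := by
      field_simp
    rw [e2, map_mul, map_pow, map_pow, h1'', one_pow, mul_one]
    exact one_lt_pow₀ h (by norm_num)

/-- case (i): residue field with two elements -/
theorem case_i (h2 : w 2 < 1) (hF : ∀ x : K, w x ≤ 1 → w x < 1 ∨ w (x - 1) < 1) {c z : K}
    (hz : z ^ 2 = c ^ 4 - 10 * c ^ 3 - 13 * c ^ 2 + 10 * c + 1) (h20 : (2 : K) ≠ 0) (hc : w c = 1) : False := by
  obtain ⟨C, hC⟩ : ∃ C : w.valuationSubring, (C : K) = c := ⟨⟨c, hc.le⟩, rfl⟩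
  have hF' : ∀ X : w.valuationSubring, IsLocalRing.residue w.valuationSubring X = 0 ∨
      IsLocalRing.residue w.valuationSubring X = 1 := by
    intro X
    rcases hF X X.2 with h | h
    · left; rw [residue_eq_zero_iff']; exact h
    · right
      have : IsLocalRing.residue w.valuationSubring (X - 1) = 0 := by
        rw [residue_eq_zero_iff']; exact h
      rw [map_sub, map_one, sub_eq_zero] at this
      exact this
  have hC1 : IsLocalRing.residue w.valuationSubring C = 1 := by
    rcases hF' C with h | h
    · exfalso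
      rw [residue_eq_zero_iff', hC, hc] at h
      exact lt_irrefl _ h
    · exact h
  obtain ⟨r, hr⟩ : ∃ r, r = (z - (c ^ 2 + c + 1)) / 2 := ⟨_, rfl⟩
  have hr2 : r ^ 2 + r * (c ^ 2 + c + 1) = -3 * c ^ 3 - 4 * c ^ 2 + 2 * c := by
    rw [hr]
    field_simp
    linear_combination hz
  have hrle : w r ≤ 1 := by
    by_contra hcon
    push Not at hcon
    have hr0 : r ≠ 0 := by rintro rfl; simp at hcon
    have h' : w r⁻¹ < 1 := by
      rw [map_inv₀]; exact inv_lt_one_of_one_lt₀ hcon
    obtain ⟨R, hR⟩ : ∃ R : w.valuationSubring, (R : K) = r⁻¹ := ⟨⟨r⁻¹, h'.le⟩, rfl⟩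
    have hR0 : IsLocalRing.residue w.valuationSubring R = 0 := by
      rw [residue_eq_zero_iff', hR]; exact h'
    have he : 1 + R * (C ^ 2 + C + 1) = (-3 * C ^ 3 - 4 * C ^ 2 + 2 * C) * R ^ 2 := by
      apply ext' w
      simp only [map_mul, map_sub, map_add, map_pow, map_ofNat, map_one, map_neg, map_zero,
        ValuationSubring.subtype_apply]
      rw [hR, hC]
      field_simp
      linear_combination hr2
    have he' := congrArg (IsLocalRing.residue w.valuationSubring) he
    simp only [map_mul, map_sub, map_add, map_pow, map_ofNat, map_one, map_neg, hR0] at he'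
    apply one_ne_zero (α := IsLocalRing.ResidueField w.valuationSubring)
    linear_combination he'
  obtain ⟨R, hR⟩ : ∃ R : w.valuationSubring, (R : K) = r := ⟨⟨r, hrle⟩, rfl⟩
  have he : R ^ 2 + R * (C ^ 2 + C + 1) = -3 * C ^ 3 - 4 * C ^ 2 + 2 * C := by
    apply ext' w
    simp only [map_mul, map_sub, map_add, map_pow, map_ofNat, map_one, map_neg, map_zero,
        ValuationSubring.subtype_apply]
    rw [hR, hC]
    exact hr2
  have he' := congrArg (IsLocalRing.residue w.valuationSubring) he
  simp only [map_mul, map_sub, map_add, map_pow, map_ofNat, map_one, map_neg, hC1] at he'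
  have h2k := two_res w h2
  rcases hF' R with h | h <;> rw [h] at he' <;> apply one_ne_zero (α := IsLocalRing.ResidueField w.valuationSubring)
  · linear_combination he' - 2 * h2k
  · linear_combination he' - 4 * h2k

/-- case (ii): the equation with a rational number `x` -/
theorem case_ii [CharZero K] (h2 : w 2 < 1) {c : K} (x : ℚ)
    (hx : (8 - (x : K)) * c ^ 2 + 5 * ((x : K) + 1) * c + ((x : K) + 1) * ((x : K) + 2) = 0)
    (hc : w c = 1) : False := by
  obtain ⟨C, hC⟩ : ∃ C : w.valuationSubring, (C : K) = c := ⟨⟨c, hc.le⟩, rfl⟩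
  have hC0 : IsLocalRing.residue w.valuationSubring C ≠ 0 := by
    intro h0
    rw [residue_eq_zero_iff', hC, hc] at h0
    exact lt_irrefl _ h0
  have h2k := two_res w h2
  rcases rat_tri w h2 x with h | h | h
  · have hx0 : (x : K) ≠ 0 := by
      intro h0; rw [h0] at h; simp at h
    have h' : w (x : K)⁻¹ < 1 := by
      rw [map_inv₀]; exact inv_lt_one_of_one_lt₀ h
    obtain ⟨X, hX⟩ : ∃ X : w.valuationSubring, (X : K) = (x : K)⁻¹ := ⟨⟨_, h'.le⟩, rfl⟩
    have hX0 : IsLocalRing.residue w.valuationSubring X = 0 := by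
      rw [residue_eq_zero_iff', hX]; exact h'
    have he : (8 * X - 1) * X * C ^ 2 + 5 * (1 + X) * X * C + (1 + X) * (1 + 2 * X) = 0 := by
      apply ext' w
      simp only [map_mul, map_sub, map_add, map_pow, map_ofNat, map_one, map_neg, map_zero,
        ValuationSubring.subtype_apply]
      rw [hX, hC]
      field_simp
      linear_combination hx
    have he' := congrArg (IsLocalRing.residue w.valuationSubring) he
    simp only [map_mul, map_sub, map_add, map_pow, map_ofNat, map_one, map_zero, hX0] at he'
    apply one_ne_zero (α := IsLocalRing.ResidueField w.valuationSubring)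
    linear_combination he'
  · obtain ⟨X, hX⟩ : ∃ X : w.valuationSubring, (X : K) = (x : K) := ⟨⟨_, h.le⟩, rfl⟩
    have hX0 : IsLocalRing.residue w.valuationSubring X = 0 := by
      rw [residue_eq_zero_iff', hX]; exact h
    have he : (8 - X) * C ^ 2 + 5 * (X + 1) * C + (X + 1) * (X + 2) = 0 := by
      apply ext' w
      simp only [map_mul, map_sub, map_add, map_pow, map_ofNat, map_one, map_neg, map_zero,
        ValuationSubring.subtype_apply]
      rw [hX, hC]
      exact hx
    have he' := congrArg (IsLocalRing.residue w.valuationSubring) he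
    simp only [map_mul, map_sub, map_add, map_pow, map_ofNat, map_one, map_zero, hX0] at he'
    apply hC0
    linear_combination he' - (4 * IsLocalRing.residue w.valuationSubring C ^ 2 +
      2 * IsLocalRing.residue w.valuationSubring C + 1) * h2k
  · obtain ⟨X, hX⟩ : ∃ X : w.valuationSubring, (X : K) = (x : K) - 1 := ⟨⟨_, h.le⟩, rfl⟩
    have hX0 : IsLocalRing.residue w.valuationSubring X = 0 := by
      rw [residue_eq_zero_iff', hX]; exact h
    have he : (7 - X) * C ^ 2 + 5 * (X + 2) * C + (X + 2) * (X + 3) = 0 := by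
      apply ext' w
      simp only [map_mul, map_sub, map_add, map_pow, map_ofNat, map_one, map_neg, map_zero,
        ValuationSubring.subtype_apply]
      rw [hX, hC]
      linear_combination hx
    have he' := congrArg (IsLocalRing.residue w.valuationSubring) he
    simp only [map_mul, map_sub, map_add, map_pow, map_ofNat, map_one, map_zero, hX0] at he'
    have : IsLocalRing.residue w.valuationSubring C ^ 2 = 0 := by
      linear_combination he' - (3 * IsLocalRing.residue w.valuationSubring C ^ 2 +
        5 * IsLocalRing.residue w.valuationSubring C + 3) * h2k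
    exact hC0 (by simpa using this)

end Val

end Vale.Agent.P017.H262
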