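import Vale.Agent.P017.H262.Alg
import Vale.Agent.P017.H262.CaseII
import Vale.Agent.P017.H262.Val

/-!
# P017 (helper262): potentially multiplicative reduction above `2` of the elliptic curves with a
rational `3`-isogeny and a rational `5`-isogeny over an imaginary quadratic field.
-/

namespace Vale.Agent.P017.H262

open NumberField IsDedekindDomain Vale.Agent.P017.H185

variable {K : Type*} [Field K] [NumberField K]

theorem residue_two [Algebra.IsQuadraticExtension ℚ K]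
    (h : ¬ (Ideal.span {(2 : 𝓞 K)}).IsPrime) (v : HeightOneSpectrum (𝓞 K))
    (hv : (2 : 𝓞 K) ∈ v.asIdeal) (a : 𝓞 K) : a ∈ v.asIdeal ∨ a - 1 ∈ v.asIdeal := by
  obtain ⟨J, hJ⟩ : v.asIdeal ∣ Ideal.span {(2 : 𝓞 K)} := Ideal.dvd_span_singleton.mpr hv
  have h4 : Ideal.absNorm (Ideal.span {(2 : 𝓞 K)}) = 4 := by
    rw [Ideal.absNorm_span_singleton]
    have h2 : (2 : 𝓞 K) = algebraMap ℤ (𝓞 K) 2 := by simp
    rw [h2, Algebra.norm_algebraMap, RingOfIntegers.rank,
      Algebra.IsQuadraticExtension.finrank_eq_two]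
    norm_num
  have hmul : Ideal.absNorm v.asIdeal * Ideal.absNorm J = 4 := by
    rw [← map_mul, ← hJ, h4]
  have hv1 : Ideal.absNorm v.asIdeal ≠ 1 := by
    rw [Ne, Ideal.absNorm_eq_one_iff]
    exact v.isPrime.ne_top
  have hJ1 : Ideal.absNorm J ≠ 1 := by
    rw [Ne, Ideal.absNorm_eq_one_iff]
    rintro rfl
    apply h
    rw [hJ, Ideal.mul_top]
    exact v.isPrime
  have hv2 : Ideal.absNorm v.asIdeal = 2 := by
    have hdvd : Ideal.absNorm v.asIdeal ∣ 2 ^ 2 := ⟨_, hmul.symm⟩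
    obtain ⟨k, hk, hk2⟩ := (Nat.dvd_prime_pow Nat.prime_two).mp hdvd
    interval_cases k
    · exact absurd hk2 hv1
    · simpa using hk2
    · exfalso
      rw [hk2] at hmul
      apply hJ1
      omega
  have hcard : Nat.card (𝓞 K ⧸ v.asIdeal) = 2 := by
    rw [← hv2]; rfl
  have hne : (1 : 𝓞 K ⧸ v.asIdeal) ≠ 0 := by
    intro h0
    apply v.isPrime.ne_top
    rw [Ideal.eq_top_iff_one]
    exact Ideal.Quotient.eq_zero_iff_mem.mp (by rw [map_one]; exact h0)
  obtain ⟨y, hy, hy2⟩ := (Nat.card_eq_two_iff' (0 : 𝓞 K ⧸ v.asIdeal)).mp hcard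
  by_cases ha : Ideal.Quotient.mk v.asIdeal a = 0
  · left; exact Ideal.Quotient.eq_zero_iff_mem.mp ha
  · right
    rw [← Ideal.Quotient.eq_zero_iff_mem, map_sub, map_one, sub_eq_zero, hy2 _ ha, hy2 _ hne]

theorem residue_two_K [Algebra.IsQuadraticExtension ℚ K]
    (h : ¬ (Ideal.span {(2 : 𝓞 K)}).IsPrime) (v : HeightOneSpectrum (𝓞 K))
    (hv : (2 : 𝓞 K) ∈ v.asIdeal) (x : K) (hx : v.valuation K x ≤ 1) :
    v.valuation K x < 1 ∨ v.valuation K (x - 1) < 1 := by
  obtain ⟨a, ha⟩ := v.exists_valuation_sub_lt_of_integer (K := K) hx 1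
  rw [Units.val_one] at ha
  rcases residue_two h v hv a with h1 | h1
  · left
    have h2 := (v.valuation_lt_one_iff_mem (K := K) a).mpr h1
    have e : x = algebraMap (𝓞 K) K a - (algebraMap (𝓞 K) K a - x) := by ring
    rw [e]
    exact lt_of_le_of_lt (Valuation.map_sub _ _ _) (max_lt h2 ha)
  · right
    have h2 := (v.valuation_lt_one_iff_mem (K := K) (a - 1)).mpr h1
    have e : x - 1 = algebraMap (𝓞 K) K (a - 1) - (algebraMap (𝓞 K) K a - x) := by
      rw [map_sub, map_one]; ring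
    rw [e]
    exact lt_of_le_of_lt (Valuation.map_sub _ _ _) (max_lt h2 ha)

theorem no_sqrt5 {d : ℕ} (q : QF K d) (s : K) : s ^ 2 ≠ 5 := by
  intro hs
  have hs' : s = (q.re s : K) + q.im s * q.θ := q.eq_re_im s
  generalize q.re s = a at hs'
  generalize q.im s = b at hs'
  have h1 : ((a ^ 2 - d * b ^ 2 - 5 : ℚ) : K) + ((2 * a * b : ℚ) : K) * q.θ = 0 := by
    rw [hs'] at hs
    push_cast
    linear_combination hs - (b : K) ^ 2 * q.hθ
  obtain ⟨h2, h3⟩ := q.uniq h1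
  have hdpos : (0 : ℚ) < d := by exact_mod_cast q.d_pos
  rcases mul_eq_zero.mp h3 with h3 | h3
  · have ha : a = 0 := by linarith
    rw [ha] at h2
    nlinarith [mul_nonneg hdpos.le (sq_nonneg b)]
  · rw [h3] at h2
    have h5 : a ^ 2 = 5 := by linear_combination h2
    have h6 : IsSquare (5 : ℚ) := ⟨a, by rw [← h5]; ring⟩
    have h7 : IsSquare ((5 : ℕ) : ℚ) := by exact_mod_cast h6
    rw [Rat.isSquare_natCast_iff] at h7
    exact (Nat.Prime.prime (by norm_num : Nat.Prime 5)).not_isSquare h7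

theorem norm_eq {d : ℕ} [Algebra.IsQuadraticExtension ℚ K] (q : QF K d) (z : K) :
    Algebra.norm ℚ z = q.nm z := by
  classical
  have hcard : Nat.card Gal(K/ℚ) = 2 := by
    rw [IsGalois.card_aut_eq_finrank, Algebra.IsQuadraticExtension.finrank_eq_two]
  have hθ0 : q.θ ≠ 0 := by
    intro h0
    have h1 := q.hθ
    rw [h0] at h1
    have h2 : (d : K) = 0 := by linear_combination h1
    have h3 : d = 0 := by exact_mod_cast h2
    exact absurd h3 q.d_pos.ne'
  have hne : (1 : Gal(K/ℚ)) ≠ q.σ := by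
    intro h0
    have h1 : (1 : Gal(K/ℚ)) q.θ = q.σ q.θ := by rw [h0]
    rw [q.hσ, AlgEquiv.one_apply] at h1
    apply hθ0
    linear_combination (1 / 2 : K) * h1
  have huniv : (Finset.univ : Finset Gal(K/ℚ)) = {1, q.σ} := by
    symm
    apply Finset.eq_of_subset_of_card_le (Finset.subset_univ _)
    rw [Finset.card_pair hne, Finset.card_univ, ← Nat.card_eq_fintype_card, hcard]
  have h := Algebra.norm_eq_prod_automorphisms ℚ z
  rw [huniv, Finset.prod_pair hne, AlgEquiv.one_apply, q.mul_σ] at h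
  have h2 : ((Algebra.norm ℚ z : ℚ) : K) = ((q.nm z : ℚ) : K) := by
    rw [← h]; simp
  exact_mod_cast h2

/-- The main theorem in terms of the isogeny parameters. -/
theorem main [Algebra.IsQuadraticExtension ℚ K] [IsTotallyComplex K]
    (hK : ¬ (Ideal.span {(2 : 𝓞 K)}).IsPrime ∨ ¬ ∃ z : K, Algebra.norm ℚ z = 5)
    {h t : K} (hh : h ≠ 0) (ht : t ≠ 0)
    (hj : (h + 27) * (h + 3) ^ 3 / h = (t ^ 2 + 10 * t + 5) ^ 3 / t)
    (v : HeightOneSpectrum (𝓞 K)) (hv : (2 : 𝓞 K) ∈ v.asIdeal) :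
    1 < v.valuation K ((t ^ 2 + 10 * t + 5) ^ 3 / t) := by
  obtain ⟨d, ⟨q⟩⟩ := exists_QF K
  have hR : (h + 27) * (h + 3) ^ 3 * t = (t ^ 2 + 10 * t + 5) ^ 3 * h := by
    rwa [div_eq_div_iff hh ht] at hj
  have h2 : v.valuation K 2 < 1 := by
    have := (v.valuation_lt_one_iff_mem (K := K) 2).mpr hv
    have e : algebraMap (𝓞 K) K 2 = 2 := map_ofNat (algebraMap (𝓞 K) K) 2
    rw [← e]; exact this
  obtain ⟨c, hc0, hc⟩ := exists_c (no_sqrt5 q) hh ht hR
  obtain ⟨z, hz⟩ := exists_z (no_sqrt5 q) hc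
  apply j_big _ h2 ht
  intro ht1
  have hc1 := c_unit _ h2 ht1 hc
  rcases hK with hK | hK
  · exact case_i _ h2 (residue_two_K hK v hv) hz two_ne_zero hc1
  · have h5 : ∀ w : K, q.nm w ≠ 5 := by
      intro w hw
      exact hK ⟨w, by rw [norm_eq q, hw]⟩
    obtain ⟨x, hx⟩ := quartic_rat q h5 hz
    exact case_ii _ h2 x hx hc1

end Vale.Agent.P017.H262
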